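import Mathlib
import Vale.Agent.Lib.P162.Defs
import Vale.Agent.Lib.P162.RDefs
import Vale.Agent.Lib.P162.helper57.Assembly

/-!
Thorp shuffle: the probability that the new card shares a coin with one of the old cards
(pool job P162-R5, second copy by helper40; adapted from `H57.bad_prob`).
-/

namespace Vale.Agent.Lib.P162.H40

open Finset BigOperators
open Vale.Agent.Lib.P162.H36 (cast_eq_iff move_injective)
open Vale.Agent.Lib.P162.H95 (Kmat_pow_support Kmat_pow_nonneg)
open Vale.Agent.Lib.P162.H5 (lump_pair)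
open Vale.Agent.Lib.P162.H57 (pair_partner)

theorem new_bad_prob (h j : ℕ) [NeZero h] [DecidablePred (newBad h j)]
    (x : Fin (j + 1) → ZMod (2 * h)) (hx : Function.Injective x) (m s : ℕ) (hm : 2 ^ m ≤ h)
    (hs : m ≤ s) :
    ∑ z ∈ univ.filter (newBad h j), (Kmat h (j + 1) ^ s) x z ≤ (j : ℝ) / 2 ^ m := by
  have hnn : ∀ z, 0 ≤ (Kmat h (j + 1) ^ s) x z := fun z => Kmat_pow_nonneg h (j + 1) s x z
  have h1 : ∑ z ∈ univ.filter (newBad h j), (Kmat h (j + 1) ^ s) x z
      ≤ ∑ z, ∑ i : Fin j,
          (if z i.succ = z 0 + (h : ZMod (2 * h)) then (Kmat h (j + 1) ^ s) x z else 0) := by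
    rw [Finset.sum_filter]
    apply Finset.sum_le_sum
    intro z _
    have hterm : ∀ i ∈ (univ : Finset (Fin j)),
        0 ≤ (if z i.succ = z 0 + (h : ZMod (2 * h)) then (Kmat h (j + 1) ^ s) x z else 0) := by
      intro p _
      split_ifs
      · exact hnn z
      · exact le_refl _
    by_cases hb : newBad h j z
    · rw [if_pos hb]
      by_cases hz : (Kmat h (j + 1) ^ s) x z = 0
      · have hsum := Finset.sum_nonneg hterm
        linarith
      · have hzinj := Kmat_pow_support h (j + 1) (move_injective h) x hx s z hz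
        obtain ⟨i, hc⟩ := hb
        rw [cast_eq_iff] at hc
        have hc' : z i.succ = z 0 + (h : ZMod (2 * h)) := by
          rcases hc with hc | hc
          · exact absurd (hzinj hc) (Fin.succ_ne_zero i)
          · exact hc
        have h5 := Finset.single_le_sum hterm (Finset.mem_univ i)
        rw [if_pos hc'] at h5
        exact h5
    · rw [if_neg hb]
      exact Finset.sum_nonneg hterm
  have h2 : ∀ i ∈ (univ : Finset (Fin j)),
      ∑ z, (if z i.succ = z 0 + (h : ZMod (2 * h)) then (Kmat h (j + 1) ^ s) x z else 0)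
        ≤ 1 / 2 ^ m := by
    intro i _
    have hjj : (0 : Fin (j + 1)) ≠ i.succ := (Fin.succ_ne_zero i).symm
    rw [← Finset.sum_filter]
    set P := univ.filter (fun w : Fin 2 → ZMod (2 * h) => w 1 = w 0 + (h : ZMod (2 * h))) with hP
    have hmaps : ∀ z ∈ univ.filter
        (fun z : Fin (j + 1) → ZMod (2 * h) => z i.succ = z 0 + (h : ZMod (2 * h))),
        (![z 0, z i.succ] : Fin 2 → ZMod (2 * h)) ∈ P := by
      intro z hz
      rw [Finset.mem_filter] at hz
      rw [hP, Finset.mem_filter]
      refine ⟨Finset.mem_univ _, ?_⟩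
      simpa using hz.2
    rw [← Finset.sum_fiberwise_of_maps_to hmaps]
    have h3 : ∀ w ∈ P,
        ∑ z ∈ (univ.filter (fun z : Fin (j + 1) → ZMod (2 * h) =>
              z i.succ = z 0 + (h : ZMod (2 * h)))).filter
            (fun z => (![z 0, z i.succ] : Fin 2 → ZMod (2 * h)) = w), (Kmat h (j + 1) ^ s) x z
          = (Kmat h 2 ^ s) ![x 0, x i.succ] w := by
      intro w hw
      rw [hP, Finset.mem_filter] at hw
      rw [← lump_pair h (j + 1) x 0 i.succ hjj s w]
      apply Finset.sum_congr _ (fun _ _ => rfl)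
      ext z
      simp only [Finset.mem_filter, Finset.mem_univ, true_and]
      constructor
      · rintro ⟨_, h2⟩
        rw [← h2]
        simp
      · rintro ⟨ha, hb⟩
        refine ⟨?_, ?_⟩
        · rw [ha, hb]
          exact hw.2
        · funext i'
          fin_cases i'
          · simpa using ha
          · simpa using hb
    rw [Finset.sum_congr rfl h3]
    have hxj : (![x 0, x i.succ] : Fin 2 → ZMod (2 * h)) 0
        ≠ (![x 0, x i.succ] : Fin 2 → ZMod (2 * h)) 1 := by
      simp only [Matrix.cons_val_zero, Matrix.cons_val_one]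
      exact fun hh => hjj (hx hh)
    exact pair_partner h ![x 0, x i.succ] hxj m s hm hs
  calc ∑ z ∈ univ.filter (newBad h j), (Kmat h (j + 1) ^ s) x z
      ≤ ∑ z, ∑ i : Fin j,
          (if z i.succ = z 0 + (h : ZMod (2 * h)) then (Kmat h (j + 1) ^ s) x z else 0) := h1
    _ = ∑ i : Fin j, ∑ z,
          (if z i.succ = z 0 + (h : ZMod (2 * h)) then (Kmat h (j + 1) ^ s) x z else 0) :=
        Finset.sum_comm
    _ ≤ ∑ _i : Fin j, (1 / 2 ^ m : ℝ) := Finset.sum_le_sum h2
    _ = (j : ℝ) / 2 ^ m := by
        rw [Finset.sum_const, Finset.card_univ, Fintype.card_fin, nsmul_eq_mul]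
        ring

end Vale.Agent.Lib.P162.H40
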